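import Crest.Agent.N233.Pb.Ix
import Crest.Agent.N255.Nv.Ne

/-!
# Row 233 (helper40): removal sequences and a kernel checker for non-evasive sets of the block
-/

set_option autoImplicit false
open Set

namespace Crest.Agent.N233.Pb

open PS N255.Nv
open Lo (BG bc)

section abs
variable {I J : Type} {R : I → I → Prop} {R' : J → J → Prop} {m : ℕ}

/-- `t` reduces to `t0` by at most `n` removals of vertices with non-evasive links -/
def Rd (R : I → I → Prop) (m : ℕ) : ℕ → Set I → Set I → Prop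
  | 0, t, t0 => t = t0
  | n + 1, t, t0 => t = t0 ∨ ∃ v ∈ t, v ∉ t0 ∧ Nev R m (Lk R t v) ∧ Rd R m n (t \ {v}) t0

theorem Rd.refl (n : ℕ) (t : Set I) : Rd R m n t t := by
  cases n with
  | zero => rfl
  | succ n => exact Or.inl rfl

theorem Rd.sub {n : ℕ} : ∀ {t t0 : Set I}, Rd R m n t t0 → t0 ⊆ t := by
  induction n with
  | zero => rintro _ _ rfl; exact Subset.rfl
  | succ n ih =>
    rintro t t0 (rfl | ⟨v, -, -, -, h⟩)
    exacts [Subset.rfl, (ih h).trans sdiff_subset]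

theorem Rd.nev {n m' : ℕ} (l : m ≤ m') : ∀ {t t0 : Set I}, Rd R m n t t0 → Nev R m' t0 →
    Nev R (m' + n) t := by
  induction n with
  | zero => rintro _ _ rfl h; exact h
  | succ n ih =>
    rintro t t0 (rfl | ⟨v, hv, -, a, h⟩) h0
    · exact h0.mono (Nat.le_add_right _ _)
    · exact Or.inr ⟨v, hv, ih h h0, a.mono (l.trans (Nat.le_add_right _ _))⟩

theorem Rd.succ {n : ℕ} : ∀ {t t0 : Set I}, Rd R m n t t0 → Rd R m (n + 1) t t0 := by
  induction n with
  | zero => exact fun h => Or.inl h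
  | succ n ih => exact fun h => h.imp id fun ⟨v, hv, h0, a, b⟩ => ⟨v, hv, h0, a, ih b⟩

theorem Rd.mono {n n' : ℕ} {t t0 : Set I} (h : Rd R m n t t0) (l : n ≤ n') : Rd R m n' t t0 := by
  induction l with
  | refl => exact h
  | step _ ih => exact ih.succ

theorem Rd.trans {n n' : ℕ} : ∀ {t t0 t1 : Set I}, Rd R m n t t0 → Rd R m n' t0 t1 →
    Rd R m (n' + n) t t1 := by
  induction n with
  | zero => rintro _ _ _ rfl h; exact h
  | succ n ih =>
    rintro t t0 t1 (rfl | ⟨v, hv, h0, a, h⟩) h'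
    · exact h'.mono (Nat.le_add_right _ _)
    · exact Or.inr ⟨v, hv, fun c => h0 (h'.sub c), a, ih h h'⟩


variable {f : I → J} {U : Set I}

theorem im_diff (hf : InjOn f U) {t : Set I} (ht : t ⊆ U) {v : I} (hv : v ∈ t) :
    f '' t \ {f v} = f '' (t \ {v}) := by
  ext y
  constructor
  · rintro ⟨⟨w, hw, rfl⟩, e⟩
    exact ⟨w, ⟨hw, fun c => e (congrArg f c)⟩, rfl⟩
  · rintro ⟨w, ⟨hw, e⟩, rfl⟩
    exact ⟨mem_image_of_mem f hw, fun c => e (hf (ht hw) (ht hv) c)⟩

theorem im_lk (hf : InjOn f U) (hR : ∀ a ∈ U, ∀ b ∈ U, R' (f a) (f b) ↔ R a b) {t : Set I}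
    (ht : t ⊆ U) {v : I} (hv : v ∈ t) : Lk R' (f '' t) (f v) = f '' Lk R t v := by
  ext y
  rw [Lk, im_diff hf ht hv]
  constructor
  · rintro ⟨⟨w, hw, rfl⟩, r⟩
    exact ⟨w, ⟨hw, (hR _ (ht hv) _ (ht hw.1)).1 r⟩, rfl⟩
  · rintro ⟨w, ⟨hw, r⟩, rfl⟩
    exact ⟨⟨w, hw, rfl⟩, (hR _ (ht hv) _ (ht hw.1)).2 r⟩

theorem nev_of_image (hf : InjOn f U) (hR : ∀ a ∈ U, ∀ b ∈ U, R' (f a) (f b) ↔ R a b) :
    ∀ {m : ℕ} {t : Set I}, t ⊆ U → Nev R' m (f '' t) → Nev R m t := by
  have one : ∀ {t : Set I}, t ⊆ U → ∀ a, f '' t = {a} → ∃ b, t = {b} := fun {t} ht a e => by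
    obtain ⟨b, hb, -⟩ : a ∈ f '' t := e ▸ mem_singleton a
    refine ⟨b, eq_singleton_iff_unique_mem.2 ⟨hb, fun x hx => hf (ht hx) (ht hb) ?_⟩⟩
    exact (show f x ∈ ({a} : Set J) from e ▸ mem_image_of_mem f hx).trans
      (show f b ∈ ({a} : Set J) from e ▸ mem_image_of_mem f hb).symm
  intro m
  induction m with
  | zero => rintro t ht ⟨a, e⟩; exact one ht a e
  | succ m ih =>
    rintro t ht (⟨a, e⟩ | ⟨_, ⟨v, hv, rfl⟩, a, b⟩)
    · exact Or.inl (one ht a e)
    · rw [im_diff hf ht hv] at a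
      rw [im_lk hf hR ht hv] at b
      exact Or.inr ⟨v, hv, ih (sdiff_subset.trans ht) a, ih (fun _ h => ht h.1.1) b⟩


end abs

/-- equal or adjacent in the block -/
def RB (i j : Fin 116) : Prop := i = j ∨ BG.Adj i j

/-- the set coded by a mask -/
def ms (t : ℕ) : Set (Fin 116) := {i | t.testBit i = true}

/-- a candidate in `u` -/
def fnd (f : ℕ → Bool) : ℕ → ℕ → ℕ
  | 0, _ => 200
  | n + 1, u => bif u == 0 then 200 else bif f u.log2 then u.log2 else fnd f n (u - 2 ^ u.log2)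

theorem fnd_spec (f : ℕ → Bool) : ∀ n u, fnd f n u = 200 ∨ f (fnd f n u) = true
  | 0, _ => .inl rfl
  | n + 1, u => by
    rw [fnd]
    cases u == 0
    · cases h : f u.log2
      · exact fnd_spec f n _
      · exact .inr h
    · exact .inl rfl

/-- one point -/
def one (t : ℕ) : Bool := Nat.blt t.log2 116 && t == 2 ^ t.log2

/-- greedy reduction until `stop`, keeping `t0` -/
def red (d stop : ℕ → Bool) (t0 : ℕ) : ℕ → ℕ → Bool
  | 0, t => stop t
  | n + 1, t => stop t || (fun v => Nat.blt v 116 && t.testBit v && !t0.testBit v &&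
      red d stop t0 n (t ^^^ 2 ^ v)) (fnd (fun v => d (t &&& mk v)) 116 (t ^^^ t0))

/-- greedy test of non-evasiveness in dimension `k` -/
def nv : ℕ → ℕ → Bool
  | 0 => one
  | k + 1 => red (nv k) one 0 116


theorem ms_one {t : ℕ} (h : one t = true) : ∃ a, ms t = {a} := by
  rw [one, Bool.and_eq_true, Nat.blt_eq, beq_iff_eq] at h
  generalize t.log2 = v at h
  obtain ⟨h1, rfl⟩ := h
  refine ⟨⟨v, h1⟩, Set.ext fun i => ?_⟩
  change (2 ^ v).testBit i = true ↔ i = _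
  rw [Nat.testBit_two_pow, decide_eq_true_iff, Fin.ext_iff, eq_comm]

theorem ms_xor {t : ℕ} {v : Fin 116} (h : t.testBit v = true) : ms (t ^^^ 2 ^ (v : ℕ)) = ms t \ {v} := by
  ext i
  change (t ^^^ 2 ^ (v : ℕ)).testBit i = true ↔ t.testBit i = true ∧ ¬i = v
  rw [Nat.testBit_xor, Nat.testBit_two_pow, Fin.ext_iff]
  by_cases e : (v : ℕ) = i
  · simp [← e, h]
  · simp [e, Ne.symm e]

theorem ms_lk (t : ℕ) (v : Fin 116) : ms (t &&& mk v) = Lk RB (ms t) v := by
  ext i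
  change (t &&& mk v).testBit i = true ↔ (t.testBit i = true ∧ ¬i = v) ∧ (v = i ∨ BG.Adj v i)
  rw [Nat.testBit_and, Bool.and_eq_true]
  exact ⟨fun h => ⟨⟨h.1, (show BG.Adj v i from h.2).ne'⟩, .inr h.2⟩,
    fun h => ⟨h.1.1, h.2.resolve_left fun e => h.1.2 e.symm⟩⟩

theorem red_spec {d stop : ℕ → Bool} {m t0 : ℕ} (hd : ∀ t, d t = true → Nev RB m (ms t)) :
    ∀ n t, red d stop t0 n t = true → ∃ t1, stop t1 = true ∧ Rd RB m n (ms t) (ms t1) ∧
      ∀ i ∈ ms t, i ∈ ms t0 → i ∈ ms t1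
  | 0, t, h => ⟨t, h, rfl, fun _ a _ => a⟩
  | n + 1, t, h => by
    rw [red, Bool.or_eq_true] at h
    rcases h with h | h
    · exact ⟨t, h, .inl rfl, fun _ a _ => a⟩
    have hs := fnd_spec (fun v => d (t &&& mk v)) 116 (t ^^^ t0)
    generalize fnd (fun v => d (t &&& mk v)) 116 (t ^^^ t0) = v at h hs
    simp only [Bool.and_eq_true, Nat.blt_eq, Bool.not_eq_true'] at h
    obtain ⟨⟨⟨h1, h2⟩, h3⟩, h4⟩ := h
    obtain ⟨t1, a, b, c⟩ := red_spec hd n _ h4
    have e := ms_xor (v := ⟨v, h1⟩) h2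
    rw [show ms (t ^^^ 2 ^ v) = _ from e] at b c
    refine ⟨t1, a, .inr ⟨⟨v, h1⟩, h2, fun k => (b.sub k).2 rfl, ?_, b⟩, fun i hi h0 => c i ⟨hi, ?_⟩ h0⟩
    · rw [← ms_lk]
      exact hd _ (hs.resolve_left (by omega))
    · rintro rfl
      exact Bool.false_ne_true (h3.symm.trans h0)

theorem nv_spec : ∀ k t, nv k t = true → Nev RB (116 * k) (ms t)
  | 0, _, h => ms_one h
  | k + 1, t, h => by
    obtain ⟨t1, a, b, -⟩ := red_spec (nv_spec k) 116 t h
    obtain ⟨x, e⟩ := ms_one a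
    exact b.nev le_rfl (e ▸ Nev.one _ x)


/-- the mask of the vertices with property `p` -/
def mx (p : ℕ → Bool) : ℕ := R.foldr (fun i s => bif p i then s ||| 2 ^ i else s) 0

theorem mem_mx {p : ℕ → Bool} {i : Fin 116} : i ∈ ms (mx p) ↔ p i = true := by
  have : ∀ l : List ℕ, (l.foldr (fun i s => bif p i then s ||| 2 ^ i else s) 0).testBit i = true ↔
      (i : ℕ) ∈ l ∧ p i = true := by
    intro l
    induction l with
    | nil => simp
    | cons a l ih =>
      rw [List.foldr_cons, List.mem_cons]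
      cases h : p a
      · rw [cond_false, ih]
        exact ⟨fun k => ⟨.inr k.1, k.2⟩, fun k => ⟨k.1.resolve_left fun e => by
          rw [e, h] at k; exact Bool.false_ne_true k.2, k.2⟩⟩
      · rw [cond_true, Nat.testBit_or, Bool.or_eq_true, ih, Nat.testBit_two_pow, decide_eq_true_iff]
        exact ⟨fun k => k.elim (fun k => ⟨.inr k.1, k.2⟩) fun e => ⟨.inl e.symm, e ▸ h⟩,
          fun k => k.1.elim (fun e => .inr e.symm) fun e => .inl ⟨e, k.2⟩⟩
  exact (this R).trans ⟨fun k => k.2, fun k => ⟨fin_R i, k⟩⟩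

/-- the carrier of `i` lies in the face with mask `r` -/
def cin (r i : ℕ) : Bool := (List.range 4).all fun c => dg (cd i) c == 0 || r.testBit c

theorem cin_iff {r : ℕ} {i : Fin 116} : cin r i = true ↔ ∀ c ∈ bc i, r.testBit c = true := by
  simp only [cin, List.all_eq_true, List.mem_range, Bool.or_eq_true, beq_iff_eq, mem_bc]
  exact ⟨fun h c hc => (h c c.2).resolve_left hc, fun h c hc => or_iff_not_imp_left.2 (h ⟨c, hc⟩)⟩

theorem chk_up : ((List.range 16).all fun r => r == 0 || nv 3 (mx (cin r))) = true := by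
  decide +kernel

/-- the mask of a face -/
def fm (ρ : Finset (Fin 4)) : ℕ := ∑ c ∈ ρ, 2 ^ (c : ℕ)

theorem fm_spec : ∀ ρ : Finset (Fin 4), fm ρ < 16 ∧ (fm ρ = 0 → ρ = ∅) ∧
    ∀ c : Fin 4, (fm ρ).testBit c = true ↔ c ∈ ρ := by decide +kernel

theorem cin_fm {ρ : Finset (Fin 4)} {i : Fin 116} : cin (fm ρ) i = true ↔ bc i ⊆ ρ :=
  cin_iff.trans (forall₂_congr fun c _ => (fm_spec ρ).2.2 c)

/-- **the subdivided faces of the block are non-evasive** -/
theorem nev_up {ρ : Finset (Fin 4)} (h : ρ.Nonempty) : Nev RB 348 {i | bc i ⊆ ρ} := by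
  have := List.all_eq_true.1 chk_up (fm ρ) (List.mem_range.2 (fm_spec ρ).1)
  rw [Bool.or_eq_true, beq_iff_eq] at this
  have e : ms (mx (cin (fm ρ))) = {i | bc i ⊆ ρ} := Set.ext fun i => mem_mx.trans cin_fm
  exact e ▸ nv_spec 3 _ (this.resolve_left fun k => h.ne_empty ((fm_spec ρ).2.1 k))

section ps
variable {V : Type} [DecidableEq V] {G : SimpleGraph V} {col : V → Fin 4}

/-- equal or adjacent in the subdivision -/
def RP (G : SimpleGraph V) (a b : PV G.IsClique) : Prop := a = b ∨ (ps G.IsClique).Adj a b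

/-- the vertices of the subdivision carried by `U` -/
def up (G : SimpleGraph V) (U : Set V) : Set (PV G.IsClique) := {a | car a ⊆ U}

omit [DecidableEq V] in
theorem Pr.injOn_up (h : Pr G col) {ρ : Set V} (hρ : G.IsClique ρ) : InjOn (ix col) (up G ρ) :=
  fun _ ha _ hb e => h.ix_inj (hρ.subset (union_subset ha hb)) e

omit [DecidableEq V] in
theorem Pr.rb_up (h : Pr G col) {ρ : Set V} (hρ : G.IsClique ρ) :
    ∀ a ∈ up G ρ, ∀ b ∈ up G ρ, RB (ix col a) (ix col b) ↔ RP G a b := fun _ ha _ hb =>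
  or_congr ⟨fun e => h.injOn_up hρ ha hb e, congrArg _⟩ (h.adj_ix (hρ.subset (union_subset ha hb)))

theorem Pr.im_up (h : Pr G col) {ρ : Finset V} (hρ : G.IsClique (ρ : Set V)) :
    ix col '' up G ρ = {i | bc i ⊆ ρ.image col} := by
  ext i
  constructor
  · rintro ⟨a, ha, rfl⟩
    change bc _ ⊆ _
    rw [h.bc_ix]
    exact Finset.image_subset_image (Finset.coe_subset.1 ha)
  · intro hi
    obtain ⟨a, ha, e⟩ := h.exists_ix hρ hi
    exact ⟨a, Finset.coe_subset.2 ha, e⟩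

/-- **subdivided simplices are non-evasive** -/
theorem Pr.nev_up (h : Pr G col) {ρ : Finset V} (hρ : G.IsClique (ρ : Set V)) (hne : ρ.Nonempty) :
    Nev (RP G) 348 (up G ρ) :=
  nev_of_image (h.injOn_up hρ) (h.rb_up hρ) Subset.rfl (h.im_up hρ ▸ Pb.nev_up (hne.image col))

end ps

end Crest.Agent.N233.Pb
private theorem rz_26a97f5aa4 : type_of% @_root_.Crest.Agent.N233.Pb.fnd.eq_def := @_root_.Crest.Agent.N233.Pb.fnd.eq_def -- L142
private theorem rz_8504126620 : type_of% @_root_.Crest.Agent.N233.Pb.fnd.eq_1 := @_root_.Crest.Agent.N233.Pb.fnd.eq_1 -- L142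
private theorem rz_99df3c08c6 : type_of% @_root_.Crest.Agent.N233.Pb.red.eq_def := @_root_.Crest.Agent.N233.Pb.red.eq_def -- L160
private theorem rz_92edf6ed61 : type_of% @_root_.Crest.Agent.N233.Pb.red.eq_1 := @_root_.Crest.Agent.N233.Pb.red.eq_1 -- L160
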